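import Vale.Agent.P342.Defs

/-!
P342, module C2 (geometry): washed points of adjacent types which are close (in the maximum norm)
to the washings of `(θ, ζ)` and `(θ + Q / 2, ζ)` give adjacent points of the graph.
-/

namespace Vale.Agent.P342

open Vale.Agent.Lib.PCP Finset

variable {l r : ℕ}

namespace Geo

theorem proj_proj (e : Fin l → Ed r) {S U : Finset (Fin l)} (h : U ⊆ S) (n : Fin l → Fin r) :
    proj e S U (proj e univ S n) = proj e univ U n := by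
  funext b
  by_cases hS : b ∈ S
  · by_cases hU : b ∈ U <;> simp [proj, hS, hU]
  · have hU : b ∉ U := fun h' => hS (h h')
    simp [proj, hS, hU]

/-- two numbers whose difference is nearly `Q / 2` modulo `Q` are in different arcs -/
theorem arc_ne {Q a a' : ℕ} (hQ : 0 < Q) (z : ℤ)
    (h : |(a' : ℝ) - a - Q / 2 - z * Q| < Q / 6) : arc Q a ≠ arc Q a' := by
  intro heq
  have hQR : (0 : ℝ) < Q := by exact_mod_cast hQ
  -- residues
  set x := a % Q with hx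
  set y := a' % Q with hy
  have hxQ : x < Q := Nat.mod_lt _ hQ
  have hyQ : y < Q := Nat.mod_lt _ hQ
  obtain ⟨p, hp⟩ : ∃ p : ℕ, a = x + Q * p := ⟨_, (Nat.mod_add_div a Q).symm⟩
  obtain ⟨p', hp'⟩ : ∃ p' : ℕ, a' = y + Q * p' := ⟨_, (Nat.mod_add_div a' Q).symm⟩
  have hxa : (a : ℝ) = x + Q * p := by exact_mod_cast hp
  have hya : (a' : ℝ) = y + Q * p' := by exact_mod_cast hp'
  -- equal arcs
  have h3x : 3 * x / Q < 3 := by
    rw [Nat.div_lt_iff_lt_mul hQ]; omega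
  have h3y : 3 * y / Q < 3 := by
    rw [Nat.div_lt_iff_lt_mul hQ]; omega
  have hn : 3 * x / Q = 3 * y / Q := by
    have := congrArg Fin.val heq
    simp only [arc, Fin.val_ofNat] at this
    rwa [Nat.mod_eq_of_lt h3x, Nat.mod_eq_of_lt h3y] at this
  have hx1 := Nat.div_mul_le_self (3 * x) Q
  have hx2 := Nat.lt_div_mul_add hQ (a := 3 * x)
  have hy1 := Nat.div_mul_le_self (3 * y) Q
  have hy2 := Nat.lt_div_mul_add hQ (a := 3 * y)
  rw [← hn] at hy1 hy2
  have hxy1 : 3 * x < 3 * y + Q := by omega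
  have hxy2 : 3 * y < 3 * x + Q := by omega
  have hxy1' : (3 : ℝ) * x < 3 * y + Q := by exact_mod_cast hxy1
  have hxy2' : (3 : ℝ) * y < 3 * x + Q := by exact_mod_cast hxy2
  -- the integer
  obtain ⟨w, hw⟩ : ∃ w : ℤ, |(y : ℝ) - x - Q / 2 - w * Q| < Q / 6 := by
    refine ⟨z + p - p', ?_⟩
    have e1 : (y : ℝ) - x - Q / 2 - ((z + p - p' : ℤ) : ℝ) * Q
        = (a' : ℝ) - a - Q / 2 - z * Q := by
      rw [hxa, hya]; push_cast; ring
    rw [e1]; exact h
  rw [abs_lt] at hw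
  obtain ⟨hw1, hw2⟩ := hw
  rcases le_or_gt w (-1) with hwn | hwp
  · have : (w : ℝ) ≤ -1 := by exact_mod_cast hwn
    nlinarith
  · have hwp' : (0 : ℤ) ≤ w := by omega
    have : (0 : ℝ) ≤ w := by exact_mod_cast hwp'
    nlinarith

/-- addition in `Fin Q` -/
theorem add_val {Q : ℕ} [NeZero Q] (a b : Fin Q) :
    ∃ z : ℤ, ((a + b).val : ℝ) = a.val + b.val + z * Q := by
  obtain ⟨p, hp⟩ : ∃ p : ℕ, (a + b).val + Q * p = a.val + b.val := by
    rw [Fin.val_add]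
    exact ⟨_, Nat.mod_add_div (a.val + b.val) Q⟩
  refine ⟨-(p : ℤ), ?_⟩
  have h2 : ((a + b).val : ℝ) + Q * p = a.val + b.val := by exact_mod_cast hp
  push_cast
  linarith

theorem abs_sub_le_dst {Q : ℕ} (a b : Fin Q) : |(a.val : ℝ) - b.val| ≤ dst a b := by
  unfold dst
  rw [abs_le]
  constructor
  · have : b.val ≤ a.val + max (a.val - b.val) (b.val - a.val) := by omega
    have h : (b.val : ℝ) ≤ a.val + (max (a.val - b.val) (b.val - a.val) : ℕ) := by exact_mod_cast this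
    linarith
  · have : a.val ≤ b.val + max (a.val - b.val) (b.val - a.val) := by omega
    have h : (a.val : ℝ) ≤ b.val + (max (a.val - b.val) (b.val - a.val) : ℕ) := by exact_mod_cast this
    linarith

theorem close_of {Q P : ℕ} (hP : 0 < P) {a b : Fin Q} (h : P * dst a b ≤ Q) :
    |(a.val : ℝ) - b.val| ≤ Q / P := by
  refine (abs_sub_le_dst a b).trans ?_
  rw [le_div_iff₀ (by exact_mod_cast hP)]
  have : (P : ℝ) * dst a b ≤ Q := by exact_mod_cast h
  linarith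

/-- the main part of the field (without `θ`) -/
noncomputable def main (m : ℕ) {Q : ℕ} (t : Fin l → ℕ) (e : Fin l → Ed r)
    (ζ : Ix l r → Fin Q) (n : Fin l → Fin r) : ℝ :=
  ∑ U : {U : Finset (Fin l) // U.Nonempty},
    (cf m t U : ℝ) * ((ζ (U, proj e univ U n)).val : ℝ) / m

theorem card_sub_le : (Fintype.card {U : Finset (Fin l) // U.Nonempty} : ℝ) ≤ 2 ^ l := by
  have h : Fintype.card {U : Finset (Fin l) // U.Nonempty} ≤ 2 ^ l := by
    refine (Fintype.card_subtype_le _).trans ?_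
    simp
  exact_mod_cast h

/-- a single term -/
theorem term_le {m Q P c a z : ℕ} (hm : 0 < m) (hc : c ≤ m)
    (h : |(z : ℝ) - a| ≤ Q / P) :
    |((c * a / m : ℕ) : ℝ) - (c : ℝ) * z / m| ≤ Q / P + 1 := by
  have hmR : (0 : ℝ) < m := by exact_mod_cast hm
  have hcR : (c : ℝ) ≤ m := by exact_mod_cast hc
  have h1 := Nat.div_mul_le_self (c * a) m
  have h2 := Nat.lt_div_mul_add hm (a := c * a)
  have h1' : ((c * a / m : ℕ) : ℝ) ≤ (c : ℝ) * a / m := by
    rw [le_div_iff₀ hmR]; exact_mod_cast h1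
  have h2' : (c : ℝ) * a / m - 1 ≤ ((c * a / m : ℕ) : ℝ) := by
    rw [sub_le_iff_le_add, div_le_iff₀ hmR]
    have : (c : ℝ) * a ≤ (c * a / m : ℕ) * m + m := by exact_mod_cast h2.le
    linarith
  have h3 : |(c : ℝ) * a / m - (c : ℝ) * z / m| ≤ Q / P := by
    have : (c : ℝ) * a / m - (c : ℝ) * z / m = (c / m) * (a - z) := by ring
    rw [this, abs_mul, abs_of_nonneg (by positivity : (0 : ℝ) ≤ c / m), abs_sub_comm]
    have hcm : (c : ℝ) / m ≤ 1 := by rw [div_le_one hmR]; exact hcR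
    calc (c : ℝ) / m * |(z : ℝ) - a| ≤ 1 * |(z : ℝ) - a| := by gcongr
      _ ≤ Q / P := by rw [one_mul]; exact h
  rw [abs_le] at h3 ⊢
  constructor <;> linarith [h3.1, h3.2]

theorem cf_le (m : ℕ) (t : Fin l → ℕ) (U : Finset (Fin l)) : cf m t U ≤ m := min_le_left _ _

theorem fld_approx {m Q : ℕ} [NeZero Q] (hm : 0 < m) {t : Fin l → ℕ}
    (hz : ∀ (U : Finset (Fin l)) (b : Fin l), t b = 0 → b ∈ U → cf m t U = 0)
    {U0 : Finset (Fin l)} (hU0 : U0.Nonempty) (hc : cf m t U0 = m) (e : Fin l → Ed r)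
    (θ : (Fin l → Fin r) → Fin Q) (ζ α : Ix l r → Fin Q)
    (hα : ∀ i, 100 * 2 ^ l * dst (wash Q U0 e θ ζ i) (α i) ≤ Q) (n : Fin l → Fin r) :
    ∃ z : ℤ, |(fld m Q t U0 e α (proj e univ (supp t) n) : ℝ) - (θ (proj e univ ∅ n)).val
      - main m t e ζ n - z * Q| ≤ 2 ^ l * ((Q : ℝ) / (100 * 2 ^ l : ℕ) + 1) := by
  have hP : 0 < 100 * 2 ^ l := by positivity
  have hsub : ∀ U : Finset (Fin l), cf m t U ≠ 0 → U ⊆ supp t := by
    intro U hU b hb
    simp only [supp, mem_filter, mem_univ, true_and]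
    intro h0
    exact hU (hz U b h0 hb)
  have hmR : (0 : ℝ) < m := by exact_mod_cast hm
  have hU0s : U0 ⊆ supp t := hsub U0 (by omega)
  set u := proj e univ (supp t) n with hu
  obtain ⟨z, hzz⟩ := add_val (θ (proj e univ ∅ n)) (ζ (⟨U0, hU0⟩, proj e univ U0 n))
  refine ⟨z, ?_⟩
  set C : ℝ := (θ (proj e univ ∅ n)).val + z * Q with hC
  have key : (fld m Q t U0 e α u : ℝ) - (θ (proj e univ ∅ n)).val - main m t e ζ n - z * Q
      = ∑ U : {U : Finset (Fin l) // U.Nonempty},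
        (((if U.1 = U0 then (α (U, proj e (supp t) U u)).val
          else cf m t U * (α (U, proj e (supp t) U u)).val / m : ℕ) : ℝ)
          - (cf m t U : ℝ) * ((ζ (U, proj e univ U n)).val : ℝ) / m
          - (if U = ⟨U0, hU0⟩ then C else 0)) := by
    rw [Finset.sum_sub_distrib, Finset.sum_sub_distrib]
    rw [Finset.sum_ite_eq' univ (⟨U0, hU0⟩ : {U : Finset (Fin l) // U.Nonempty}) (fun _ => C)]
    simp only [mem_univ, if_true]
    rw [← Nat.cast_sum]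
    simp only [fld, main]
    rw [hC]; ring
  rw [key]
  refine (Finset.abs_sum_le_sum_abs _ _).trans ?_
  have hterm : ∀ U ∈ (univ : Finset {U : Finset (Fin l) // U.Nonempty}),
      |(((if U.1 = U0 then (α (U, proj e (supp t) U u)).val
          else cf m t U * (α (U, proj e (supp t) U u)).val / m : ℕ) : ℝ)
          - (cf m t U : ℝ) * ((ζ (U, proj e univ U n)).val : ℝ) / m
          - (if U = ⟨U0, hU0⟩ then C else 0))| ≤ (Q : ℝ) / (100 * 2 ^ l : ℕ) + 1 := by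
    intro U _
    by_cases hUU : U.1 = U0
    · have hUe : U = ⟨U0, hU0⟩ := Subtype.ext hUU
      subst hUe
      rw [if_pos rfl, if_pos rfl, hu, proj_proj e hU0s, hc]
      have h1 := close_of hP (hα (⟨U0, hU0⟩, proj e univ U0 n))
      simp only [wash, if_true] at h1
      rw [proj_proj e (Finset.empty_subset _), hzz] at h1
      have h2 : (m : ℝ) * ((ζ (⟨U0, hU0⟩, proj e univ U0 n)).val : ℝ) / m
          = (ζ (⟨U0, hU0⟩, proj e univ U0 n)).val := by field_simp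
      rw [h2, hC]
      rw [abs_le] at h1 ⊢
      constructor <;> linarith [h1.1, h1.2]
    · have hUe : U ≠ ⟨U0, hU0⟩ := fun h => hUU (by rw [h])
      rw [if_neg hUU, if_neg hUe, sub_zero]
      by_cases hcf : cf m t U = 0
      · rw [hcf]
        simp only [zero_mul, Nat.zero_div, Nat.cast_zero, zero_div, sub_zero, abs_zero]
        positivity
      · rw [hu, proj_proj e (hsub _ hcf)]
        refine term_le hm (cf_le m t U) ?_
        have h1 := close_of hP (hα (U, proj e univ U n))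
        simpa only [wash, if_neg hUU] using h1
  refine (Finset.sum_le_sum hterm).trans ?_
  rw [Finset.sum_const, nsmul_eq_mul, Finset.card_univ]
  gcongr
  exact card_sub_le

theorem main_sub {m Q : ℕ} (hm : 0 < m) {t t' : Fin l → ℕ}
    (h1 : ∀ U, cf m t U ≤ cf m t' U + 2 * 2 ^ l) (h2 : ∀ U, cf m t' U ≤ cf m t U + 2 * 2 ^ l)
    (e : Fin l → Ed r) (ζ : Ix l r → Fin Q) (n : Fin l → Fin r) :
    |main m t e ζ n - main m t' e ζ n| ≤ 2 ^ l * (2 * 2 ^ l * Q / m) := by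
  have hmR : (0 : ℝ) < m := by exact_mod_cast hm
  unfold main
  rw [← Finset.sum_sub_distrib]
  refine (Finset.abs_sum_le_sum_abs _ _).trans ?_
  have hterm : ∀ U ∈ (univ : Finset {U : Finset (Fin l) // U.Nonempty}),
      |(cf m t U : ℝ) * ((ζ (U, proj e univ U n)).val : ℝ) / m -
        (cf m t' U : ℝ) * ((ζ (U, proj e univ U n)).val : ℝ) / m| ≤ 2 * 2 ^ l * Q / m := by
    intro U _
    have e1 : (cf m t U : ℝ) * ((ζ (U, proj e univ U n)).val : ℝ) / m -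
        (cf m t' U : ℝ) * ((ζ (U, proj e univ U n)).val : ℝ) / m
        = ((cf m t U : ℝ) - cf m t' U) * ((ζ (U, proj e univ U n)).val : ℝ) / m := by ring
    rw [e1, abs_div, abs_mul, abs_of_pos hmR, abs_of_nonneg
      (Nat.cast_nonneg (α := ℝ) (ζ (U, proj e univ U n)).val)]
    have h3 : |(cf m t U : ℝ) - cf m t' U| ≤ 2 * 2 ^ l := by
      have a1 : (cf m t U : ℝ) ≤ cf m t' U + 2 * 2 ^ l := by exact_mod_cast h1 U
      have a2 : (cf m t' U : ℝ) ≤ cf m t U + 2 * 2 ^ l := by exact_mod_cast h2 U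
      rw [abs_le]
      constructor <;> linarith
    have h4 : ((ζ (U, proj e univ U n)).val : ℝ) ≤ Q := by
      exact_mod_cast (ζ (U, proj e univ U n)).isLt.le
    gcongr
  refine (Finset.sum_le_sum hterm).trans ?_
  rw [Finset.sum_const, nsmul_eq_mul, Finset.card_univ]
  gcongr
  exact card_sub_le

/-- geometry, with the two facts on the coefficients as hypotheses -/
theorem geometry_aux {m Q : ℕ} [NeZero Q] (hm : 1000 * (2 ^ l) ^ 2 ≤ m) (hQ : 1000 * 2 ^ l ≤ Q)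
    (hQ2 : Even Q) {t t' : Fin l → ℕ}
    (hz : ∀ (U : Finset (Fin l)) (b : Fin l), t b = 0 → b ∈ U → cf m t U = 0)
    (hz' : ∀ (U : Finset (Fin l)) (b : Fin l), t' b = 0 → b ∈ U → cf m t' U = 0)
    (h1 : ∀ U, cf m t U ≤ cf m t' U + 2 * 2 ^ l) (h2 : ∀ U, cf m t' U ≤ cf m t U + 2 * 2 ^ l)
    {U0 U0' : Finset (Fin l)} (hU0 : U0.Nonempty) (hU0' : U0'.Nonempty) (hc : cf m t U0 = m)
    (hc' : cf m t' U0' = m) (e : Fin l → Ed r)
    (θ θ' : (Fin l → Fin r) → Fin Q) (ζ : Ix l r → Fin Q)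
    (hθ : ∀ ρ, θ' ρ = θ ρ + Fin.ofNat Q (Q / 2))
    (α α' : Ix l r → Fin Q) (hα : ∀ i, 100 * 2 ^ l * dst (wash Q U0 e θ ζ i) (α i) ≤ Q)
    (hα' : ∀ i, 100 * 2 ^ l * dst (wash Q U0' e θ' ζ i) (α' i) ≤ Q) (n : Fin l → Fin r) :
    (pt m Q t U0 e α).2 (proj e univ (supp t) n) ≠
      (pt m Q t' U0' e α').2 (proj e univ (supp t') n) := by
  have hl : (1 : ℝ) ≤ 2 ^ l := one_le_pow₀ (by norm_num)
  have hm0 : 0 < m := lt_of_lt_of_le (by positivity) hm
  have hQ0 : 0 < Q := Nat.pos_of_ne_zero (NeZero.ne Q)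
  have hmR : (0 : ℝ) < m := by exact_mod_cast hm0
  have hQR : (0 : ℝ) < Q := by exact_mod_cast hQ0
  have hQ' : (1000 : ℝ) * 2 ^ l ≤ Q := by exact_mod_cast hQ
  have hm' : (1000 : ℝ) * (2 ^ l) ^ 2 ≤ m := by exact_mod_cast hm
  obtain ⟨z1, hz1⟩ := fld_approx hm0 hz hU0 hc e θ ζ α hα n
  obtain ⟨z2, hz2⟩ := fld_approx hm0 hz' hU0' hc' e θ' ζ α' hα' n
  have h3 := main_sub hm0 h1 h2 e ζ n
  obtain ⟨z3, hz3⟩ := add_val (θ (proj e univ ∅ n)) (Fin.ofNat Q (Q / 2))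
  rw [← hθ] at hz3
  have hhalf : ((Fin.ofNat Q (Q / 2)).val : ℝ) = Q / 2 := by
    obtain ⟨k, hk⟩ := hQ2
    have e1 : (Fin.ofNat Q (Q / 2)).val = Q / 2 := by
      simp only [Fin.val_ofNat]
      exact Nat.mod_eq_of_lt (by omega)
    rw [e1]
    have e2 : Q / 2 = k := by omega
    rw [e2, hk]; push_cast; ring
  rw [hhalf] at hz3
  have hb1 : (2 : ℝ) ^ l * ((Q : ℝ) / (100 * 2 ^ l : ℕ) + 1) ≤ 11 * Q / 1000 := by
    have : (2 : ℝ) ^ l * ((Q : ℝ) / (100 * 2 ^ l : ℕ) + 1) = Q / 100 + 2 ^ l := by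
      push_cast
      field_simp
    rw [this]; linarith
  have hb2 : (2 : ℝ) ^ l * (2 * 2 ^ l * Q / m) ≤ 2 * Q / 1000 := by
    rw [← mul_div_assoc, div_le_div_iff₀ hmR (by norm_num)]
    nlinarith
  refine arc_ne hQ0 (z3 + z2 - z1) ?_
  rw [abs_le] at hz1 hz2 h3
  push_cast
  rw [abs_lt]
  constructor <;> linarith [hz1.1, hz1.2, hz2.1, hz2.2, h3.1, h3.2]

/-! the two facts on the coefficients -/

theorem cf_zero' {m : ℕ} {t : Fin l → ℕ} (U : Finset (Fin l)) (b : Fin l) (hb : t b = 0)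
    (hU : b ∈ U) : cf m t U = 0 := by
  have h : hi m t U = 0 := by
    have hne : U.Nonempty := ⟨b, hU⟩
    have := Finset.inf'_le t hU
    unfold hi
    rw [dif_pos hne]
    omega
  simp [cf, wt, h]

theorem cf_lip' {m : ℕ} {t t' : Fin l → ℕ} (h : Near t t') (U : Finset (Fin l)) :
    cf m t U ≤ cf m t' U + 2 * 2 ^ l := by
  have h1 : hi m t U ≤ hi m t' U + 1 := by
    unfold hi
    by_cases hne : U.Nonempty
    · rw [dif_pos hne, dif_pos hne]
      obtain ⟨b, hb, hbe⟩ := Finset.exists_mem_eq_inf' hne t'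
      rw [hbe]
      exact (Finset.inf'_le t hb).trans (h b).1
    · rw [dif_neg hne, dif_neg hne]; omega
  have h2 : lo t' U ≤ lo t U + 1 := by
    unfold lo
    refine Finset.sup_le fun b hb => ?_
    exact (h b).2.trans (Nat.add_le_add_right (Finset.le_sup (f := t) hb) 1)
  have h3 : wt m t U ≤ wt m t' U + 2 := by
    unfold wt; omega
  have h4 : 2 ^ l * wt m t U ≤ 2 ^ l * wt m t' U + 2 * 2 ^ l := by
    calc 2 ^ l * wt m t U ≤ 2 ^ l * (wt m t' U + 2) := Nat.mul_le_mul_left _ h3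
      _ = 2 ^ l * wt m t' U + 2 * 2 ^ l := by ring
  unfold cf
  omega

end Geo

/-- MODULE C (geometry). -/
theorem geometry {m Q : ℕ} [NeZero Q] (hm : 1000 * (2 ^ l) ^ 2 ≤ m) (hQ : 1000 * 2 ^ l ≤ Q)
    (hQ2 : Even Q) {t t' : Fin l → ℕ} (_ht : IsType m t) (_ht' : IsType m t') (hn : Near t t')
    {U0 U0' : Finset (Fin l)} (hU0 : U0.Nonempty) (hU0' : U0'.Nonempty) (hc : cf m t U0 = m)
    (hc' : cf m t' U0' = m) (e : Fin l → Ed r)
    (θ θ' : (Fin l → Fin r) → Fin Q) (ζ : Ix l r → Fin Q)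
    (hθ : ∀ ρ, θ' ρ = θ ρ + Fin.ofNat Q (Q / 2))
    (α α' : Ix l r → Fin Q) (hα : ∀ i, 100 * 2 ^ l * dst (wash Q U0 e θ ζ i) (α i) ≤ Q)
    (hα' : ∀ i, 100 * 2 ^ l * dst (wash Q U0' e θ' ζ i) (α' i) ≤ Q) (n : Fin l → Fin r) :
    (pt m Q t U0 e α).2 (proj e univ (supp t) n) ≠
      (pt m Q t' U0' e α').2 (proj e univ (supp t') n) :=
  Geo.geometry_aux hm hQ hQ2 Geo.cf_zero' Geo.cf_zero' (Geo.cf_lip' hn)
    (Geo.cf_lip' fun b => ⟨(hn b).2, (hn b).1⟩) hU0 hU0' hc hc' e θ θ' ζ hθ α α' hα hα' n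

end Vale.Agent.P342
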